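import Vale.Agent.P130.Rank.Simple.Approx
import Vale.Agent.P130.Lebesgue

/-!
Good stage data give a transformation with simple Lebesgue spectrum.
-/

open Real Finset MeasureTheory Filter
open scoped InnerProductSpace ComplexConjugate Topology
open Vale.Agent.P110.Exist (e dot)

noncomputable section

namespace Vale.Agent.P130.Rank.Simple

open Vale.Agent.P110.Exist (norm_e e_add e_zero e_neg continuous_e)

variable {S : Stages} (m : Model S) (Λ : Lim S)

/-- Mean-zero functions on the levels of stage `n`. -/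
abbrev Zmean (S : Stages) (n : ℕ) : Submodule ℂ (Fin (S.h n) → ℂ) := (total (S.h n)).ker

theorem Zmean.sum_eq {n : ℕ} (Q : Zmean S n) : ∑ a, Q.1 a = 0 := Q.2

/-- The spectral image of mean-zero level functions, linear. -/
def Lim.B (n : ℕ) : Zmean S n →ₗ[ℂ] Lp ℂ 2 ν where
  toFun Q := (Λ.memLp_F n (Zmean.sum_eq Q)).toLp
  map_add' P Q := by
    rw [← MemLp.toLp_add, MemLp.toLp_eq_toLp_iff]
    exact Eventually.of_forall fun t => by
      simp [Lim.F, sym_add, add_mul]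
  map_smul' c Q := by
    rw [RingHom.id_apply, ← MemLp.toLp_const_smul, MemLp.toLp_eq_toLp_iff]
    exact Eventually.of_forall fun t => by
      simp [Lim.F, sym_smul, mul_assoc]

theorem Lim.coeFn_B (n : ℕ) (Q : Zmean S n) :
    (Λ.B n Q : ℝ → ℂ) =ᵐ[ν] Λ.F n Q.1 := (Λ.memLp_F n (Zmean.sum_eq Q)).coeFn_toLp

include m in
theorem norm_B (n : ℕ) (Q : Zmean S n) : ‖Λ.B n Q‖ = ‖m.ψ n Q.1‖ := by
  refine (pow_left_inj₀ (norm_nonneg _) (norm_nonneg _) two_ne_zero).1 ?_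
  rw [norm_sq_lp, m.norm, ← Λ.norm_F m.lift_iso n (Zmean.sum_eq Q)]
  refine integral_congr_ae ?_
  filter_upwards [Λ.coeFn_B n Q] with t ht
  rw [ht]

theorem exists_lifted (n N : ℕ) (hnN : n ≤ N) (Q : Zmean S n) :
    ∃ P : Zmean S N, m.ψ N P.1 = m.ψ n Q.1 ∧ Λ.B N P = Λ.B n Q := by
  induction N, hnN using Nat.le_induction with
  | base => exact ⟨Q, rfl, rfl⟩
  | succ N _ ih =>
    obtain ⟨P, h1, h2⟩ := ih
    have hP : S.lift N P.1 ∈ Zmean S (N + 1) := by
      show ∑ a, S.lift N P.1 a = 0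
      rw [sum_lift, Zmean.sum_eq P, zero_mul]
    have h3 : Λ.B (N + 1) ⟨S.lift N P.1, hP⟩ = Λ.B N P := by
      refine Lp.ext ?_
      filter_upwards [Λ.coeFn_B (N + 1) ⟨S.lift N P.1, hP⟩, Λ.F_lift N P.1, Λ.coeFn_B N P]
        with t e1 e2 e3
      rw [e1, e3, e2]
    exact ⟨⟨S.lift N P.1, hP⟩, (m.compat N P.1).trans h1, h3.trans h2⟩

theorem gram_eq (i j : Σ n, Zmean S n) :
    ⟪m.ψ i.1 i.2.1, m.ψ j.1 j.2.1⟫_ℂ = ⟪Λ.B i.1 i.2, Λ.B j.1 j.2⟫_ℂ := by
  obtain ⟨P, hP1, hP2⟩ := exists_lifted m Λ i.1 (max i.1 j.1) (le_max_left _ _) i.2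
  obtain ⟨P', hP1', hP2'⟩ := exists_lifted m Λ j.1 (max i.1 j.1) (le_max_right _ _) j.2
  rw [← hP1, ← hP1', ← hP2, ← hP2']
  exact inner_eq_of_norm_eq ((m.ψ _).comp (Zmean S _).subtype) (Λ.B _)
    (fun Q => (norm_B m Λ _ Q).symm) P P'

/-- Composition with the inverse transformation on mean-zero functions. -/
def Model.U (x : m.Mzero) : m.Mzero :=
  ⟨Lp.compMeasurePreserving m.T.symm (m.mp.symm m.T) x.1, by
    rw [m.mem_Mzero]
    refine (integral_congr_ae (Lp.coeFn_compMeasurePreserving x.1 (m.mp.symm m.T))).trans ?_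
    exact ((m.mp.symm m.T).integral_comp' _).trans (m.mem_Mzero.1 x.2)⟩

/-- Composition with the transformation on mean-zero functions. -/
def Model.U' (x : m.Mzero) : m.Mzero :=
  ⟨Lp.compMeasurePreserving m.T m.mp x.1, by
    rw [m.mem_Mzero]
    refine (integral_congr_ae (Lp.coeFn_compMeasurePreserving x.1 m.mp)).trans ?_
    exact (m.mp.integral_comp' _).trans (m.mem_Mzero.1 x.2)⟩

theorem Model.coeFn_U (x : m.Mzero) :
    ((m.U x).1 : ℝ → ℂ) =ᵐ[m.μ] (x.1 : ℝ → ℂ) ∘ m.T.symm :=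
  Lp.coeFn_compMeasurePreserving x.1 (m.mp.symm m.T)

theorem Model.U_U' (x : m.Mzero) : m.U (m.U' x) = x := by
  refine Subtype.ext (Lp.ext ((m.coeFn_U _).trans ?_))
  have h := (m.mp.symm m.T).quasiMeasurePreserving.ae_eq_comp
    (Lp.coeFn_compMeasurePreserving x.1 m.mp)
  refine h.trans (Eventually.of_forall fun t => ?_)
  simp

theorem Model.continuous_U : Continuous m.U :=
  Continuous.subtype_mk
    ((Lp.compMeasurePreservingₗᵢ ℂ m.T.symm (m.mp.symm m.T)).continuous.comp continuous_subtype_val) _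

/-- The vectors spanning the mean-zero functions. -/
def Model.vec (i : Σ n, Zmean S n) : m.Mzero := ⟨m.ψ i.1 i.2.1, m.psi_mem i.1 (Zmean.sum_eq i.2)⟩

theorem exists_spectral_iso :
    ∃ W : m.Mzero →ₗᵢ[ℂ] Lp ℂ 2 ν, (∀ i, W (m.vec i) = Λ.B i.1 i.2) ∧
      ∀ x, W (m.U x) = mulE 1 (W x) := by
  set A : ((Σ n, Zmean S n) →₀ ℂ) →ₗ[ℂ] m.Mzero := Finsupp.linearCombination ℂ m.vec
  set B : ((Σ n, Zmean S n) →₀ ℂ) →ₗ[ℂ] Lp ℂ 2 ν :=
    Finsupp.linearCombination ℂ fun i => Λ.B i.1 i.2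
  have hn : ∀ c, ‖A c‖ = ‖B c‖ := Lebesgue.norm_comb fun i j => gram_eq m Λ i j
  have happ : ∀ (x : m.Mzero) (ε : ℝ), 0 < ε → ∃ i : Σ n, Zmean S n,
      (∀ a : Fin (S.h i.1), (a : ℕ) + 1 = S.h i.1 → i.2.1 a = 0) ∧ dist x (m.vec i) < ε := by
    intro x ε hε
    obtain ⟨n, Q, hQ, htop, hd⟩ := m.approx (m.mem_Mzero.1 x.2) hε
    refine ⟨⟨n, Q, hQ⟩, htop, ?_⟩
    rw [dist_comm, dist_eq_norm]
    exact hd
  have dA : DenseRange A := by
    refine Metric.denseRange_iff.2 fun x ε hε => ?_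
    obtain ⟨i, -, hi⟩ := happ x ε hε
    exact ⟨Finsupp.single i 1, by simpa [A] using hi⟩
  set W0 := B.extendOfNorm A
  have hW : ∀ c, W0 (A c) = B c :=
    LinearMap.extendOfNorm_eq dA ⟨1, fun c => by rw [one_mul, hn c]⟩
  have hnorm : ∀ x, ‖W0 x‖ = ‖x‖ := congrFun (dA.equalizer (continuous_norm.comp W0.continuous)
    continuous_norm (funext fun c => by simp [hW, hn]))
  have hvec : ∀ i, W0 (m.vec i) = Λ.B i.1 i.2 := fun i => by
    have := hW (Finsupp.single i 1)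
    simpa [A, B] using this
  refine ⟨⟨W0.toLinearMap, hnorm⟩, hvec, fun x => ?_⟩
  show W0 (m.U x) = mulE 1 (W0 x)
  have hd : DenseRange fun i : {i : Σ n, Zmean S n //
      ∀ a : Fin (S.h i.1), (a : ℕ) + 1 = S.h i.1 → i.2.1 a = 0} => m.vec i.1 := by
    refine Metric.denseRange_iff.2 fun y ε hε => ?_
    obtain ⟨i, hi1, hi2⟩ := happ y ε hε
    exact ⟨⟨i, hi1⟩, hi2⟩
  refine congrFun (hd.equalizer (W0.continuous.comp m.continuous_U)
    ((mulE 1).continuous.comp W0.continuous) (funext fun i => ?_)) x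
  obtain ⟨⟨n, Q⟩, htop⟩ := i
  have hQ' : shift Q.1 ∈ Zmean S n := by
    show ∑ a, shift Q.1 a = 0
    rw [← sym_zero_arg, sym_shift Q.1 htop, sym_zero_arg, Zmean.sum_eq Q, mul_zero]
  have hU : m.U (m.vec ⟨n, Q⟩) = m.vec ⟨n, ⟨_, hQ'⟩⟩ :=
    Subtype.ext (Lp.ext ((m.coeFn_U _).trans (m.shiftEq n Q.1 htop).symm))
  show W0 (m.U (m.vec ⟨n, Q⟩)) = mulE 1 (W0 (m.vec ⟨n, Q⟩))
  rw [hU, hvec, hvec]
  refine Lp.ext ?_
  filter_upwards [Λ.coeFn_B n ⟨_, hQ'⟩, Λ.coeFn_B n Q, coeFn_mulE 1 (Λ.B n Q)] with t h1 h2 h3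
  rw [h1, h3, h2, Lim.F, Lim.F, sym_shift Q.1 htop]
  simp [mul_assoc]

theorem surjective_of_intertwine (W : m.Mzero →ₗᵢ[ℂ] Lp ℂ 2 ν)
    (hvec : ∀ i, W (m.vec i) = Λ.B i.1 i.2) (hU : ∀ x, W (m.U x) = mulE 1 (W x)) :
    Function.Surjective W := by
  have hinv : ∀ (k : ℤ) (x : m.Mzero), ∃ y, W y = mulE k (W x) := by
    intro k
    induction k using Int.induction_on with
    | zero => exact fun x => ⟨x, (mulE_zero _).symm⟩
    | succ k ih =>
      intro x
      obtain ⟨y, hy⟩ := ih x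
      exact ⟨m.U y, by rw [hU, hy, mulE_mulE, add_comm]⟩
    | pred k ih =>
      intro x
      obtain ⟨y, hy⟩ := ih x
      refine ⟨m.U' y, ?_⟩
      have h1 : W y = mulE 1 (W (m.U' y)) := by rw [← hU, m.U_U']
      have h2 := congrArg (mulE (-1)) (h1.symm.trans hy)
      rw [mulE_mulE, mulE_mulE, neg_add_cancel, mulE_zero] at h2
      rw [h2]; congr 2; ring
  have hclosed : IsClosed (Set.range W) := W.isometry.isClosedEmbedding.isClosed_range
  have htop : (LinearMap.range W.toLinearMap).topologicalClosure = ⊤ := by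
    rw [Submodule.topologicalClosure_eq_top_iff, Submodule.eq_bot_iff]
    intro y hy
    have h0lt := two_le_h S 0
    set Q0 : Fin (S.h 0) → ℂ :=
      Pi.single ⟨0, by omega⟩ 1 - Pi.single ⟨1, by omega⟩ 1
    have hQ0 : Q0 ∈ Zmean S 0 := by
      show ∑ a, Q0 a = 0
      simp [Q0]
    have hF : ∀ᵐ t ∂ν, Λ.F 0 Q0 t = (Λ.L 0 t : ℂ) := by
      filter_upwards [ae_one_sub_e_ne] with t ht
      have hs : sym Q0 t = 1 - e t := by
        simp [sym, Q0, sub_mul, Pi.single_apply, ite_mul]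
      rw [Lim.F, Lim.Z, hs, mul_div_cancel₀ _ ht]
    set G : ℝ → ℂ := fun t => conj (y t) * (Λ.L 0 t : ℂ)
    have hGi : Integrable G ν := (Lp.memLp y).star.integrable_mul (Λ.memLp 0).ofReal
    have hG : G =ᵐ[ν] 0 := by
      refine ae_zero_of_orth hGi fun k => ?_
      obtain ⟨z, hz⟩ := hinv k (m.vec ⟨0, ⟨Q0, hQ0⟩⟩)
      have h := (Submodule.mem_orthogonal' _ _).1 hy (W z) ⟨z, rfl⟩
      rw [hz, hvec, MeasureTheory.L2.inner_def] at h
      refine Eq.trans (integral_congr_ae ?_) h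
      filter_upwards [coeFn_mulE k (Λ.B 0 ⟨Q0, hQ0⟩), Λ.coeFn_B 0 ⟨Q0, hQ0⟩, hF] with t h1 h2 h3
      rw [RCLike.inner_apply, h1, h2, h3]
      simp only [G]
      ring
    refine Lp.ext ?_
    filter_upwards [hG, Λ.pos 0, Lp.coeFn_zero ℂ 2 ν] with t h1 h2 h3
    rw [h3]
    simpa [G, h2.ne'] using h1
  have hd := (Submodule.dense_iff_topologicalClosure_eq_top).2 htop
  intro y
  have : y ∈ closure (Set.range W) := hd y
  rwa [hclosed.closure_eq] at this

theorem zpow_measurePreserving {α : Type*} [MeasurableSpace α] {μ : Measure α} (T : α ≃ᵐ α)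
    (h : MeasurePreserving T μ μ) (k : ℤ) : MeasurePreserving (⇑(T.toEquiv ^ k)) μ μ := by
  induction k using Int.induction_on with
  | zero => exact MeasurePreserving.id μ
  | succ k ih => rw [zpow_add_one, Equiv.Perm.coe_mul]; exact ih.comp h
  | pred k ih => rw [zpow_sub_one, Equiv.Perm.coe_mul]; exact ih.comp (h.symm T)

/-- **Simple Lebesgue spectrum** from good stage data and their rank-one transformations. -/
theorem simple_lebesgue (hG : GoodStagesSpec) (hR : RankOneSpec) : SimpleLebesgueSpec := by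
  obtain ⟨S, hS⟩ := hG
  obtain ⟨Λ⟩ := exists_lim hS
  obtain ⟨μ, T, ψ, hp, ha, hT, hn, hm, hc, hs, hd⟩ := hR S
  let m : Model S := ⟨μ, T, ψ, hp, ha, hT, hn, hm, hc, hs, hd⟩
  obtain ⟨W, hvec, hU⟩ := exists_spectral_iso m Λ
  have hsurj := surjective_of_intertwine m Λ W hvec hU
  set o : Lp ℂ 2 ν := Lp.const 2 ν (1 : ℂ)
  have ho : (o : ℝ → ℂ) =ᵐ[ν] fun _ => (1 : ℂ) := AEEqFun.coeFn_const (α := ℝ) (μ := ν) (1 : ℂ)
  choose x hx using fun k : ℤ => hsurj (mulE k o)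
  have hW : ∀ k : ℤ, (W (x k) : ℝ → ℂ) =ᵐ[ν] fun t => e (t * (k : ℝ)) := fun k => by
    rw [hx]
    filter_upwards [coeFn_mulE k o, ho] with t h1 h2
    rw [h1, h2, mul_one]
  -- the transformation moves the vectors one step
  have hstep : ∀ k : ℤ, ((x (k + 1)).1 : ℝ → ℂ) =ᵐ[μ] ((x k).1 : ℝ → ℂ) ∘ T.symm := fun k => by
    have h1 : m.U (x k) = x (k + 1) := W.injective (by
      rw [hU, hx, hx, mulE_mulE, add_comm])
    rw [← h1]
    exact m.coeFn_U (x k)
  have hstep' : ∀ k : ℤ, ((x k).1 : ℝ → ℂ) =ᵐ[μ] ((x (k + 1)).1 : ℝ → ℂ) ∘ T := fun k => by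
    refine ((hT.quasiMeasurePreserving.ae_eq_comp (hstep k)).trans
      (Eventually.of_forall fun t => ?_)).symm
    simp
  set f : ℝ → ℂ := ((x 0).1 : ℝ → ℂ)
  have horb : ∀ k : ℤ, f ∘ ⇑(T.toEquiv ^ k) =ᵐ[μ] ((x (-k)).1 : ℝ → ℂ) := by
    intro k
    induction k using Int.induction_on with
    | zero => rw [neg_zero]; exact Filter.EventuallyEq.rfl
    | succ k ih =>
      rw [zpow_add_one, Equiv.Perm.coe_mul, ← Function.comp_assoc]
      refine (hT.quasiMeasurePreserving.ae_eq_comp ih).trans ?_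
      have h := hstep' (-((k : ℤ) + 1))
      rw [show -((k : ℤ) + 1) + 1 = -(k : ℤ) by ring] at h
      exact h.symm
    | pred k ih =>
      rw [zpow_sub_one, Equiv.Perm.coe_mul, ← Function.comp_assoc]
      refine ((hT.symm T).quasiMeasurePreserving.ae_eq_comp ih).trans ?_
      have h := hstep (-(-(k : ℤ)))
      rw [show -(-(k : ℤ)) + 1 = -(-(k : ℤ) - 1) by ring] at h
      exact h.symm
  refine ⟨μ, T, f, hp, ha, hT, Lp.memLp _, m.mem_Mzero.1 (x 0).2, fun k => ?_, fun g hg hg0 horth => ?_⟩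
  · have h1 : ∫ y, f ((T.toEquiv ^ k) y) * conj (f y) ∂μ = ⟪(x 0).1, (x (-k)).1⟫_ℂ := by
      rw [MeasureTheory.L2.inner_def]
      refine integral_congr_ae ?_
      filter_upwards [horb k] with y hy
      rw [RCLike.inner_apply, ← hy]
      rfl
    rw [h1, ← Submodule.coe_inner, ← W.inner_map_map, MeasureTheory.L2.inner_def]
    refine Eq.trans (integral_congr_ae (g := fun t => e (t * ((-k : ℤ) : ℝ))) ?_) ?_
    · filter_upwards [hW 0, hW (-k)] with t h1 h2
      rw [RCLike.inner_apply, h1, h2]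
      simp
    · rw [integral_e]
      simp
  · set G : Lp ℂ 2 μ := hg.toLp
    have hG : G ∈ m.Mzero := by
      rw [m.mem_Mzero]
      exact (integral_congr_ae hg.coeFn_toLp).trans hg0
    have h0 : ∀ k : ℤ, ∫ t, e (t * (k : ℝ)) * W ⟨G, hG⟩ t ∂ν = 0 := by
      intro k
      have h1 : ⟪(x (-k)).1, G⟫_ℂ = 0 := by
        rw [MeasureTheory.L2.inner_def]
        refine Eq.trans (integral_congr_ae ?_) (horth k)
        filter_upwards [horb k, hg.coeFn_toLp] with y hy hy'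
        rw [RCLike.inner_apply, hy', ← hy]
        rfl
      have h2 : ⟪W (x (-k)), W ⟨G, hG⟩⟫_ℂ = 0 := by rw [W.inner_map_map]; exact h1
      rw [MeasureTheory.L2.inner_def] at h2
      refine Eq.trans (integral_congr_ae ?_) h2
      filter_upwards [hW (-k)] with t ht
      rw [RCLike.inner_apply, ht, ← e_neg]
      push_cast
      rw [mul_neg, neg_neg, mul_comm]
    have hz : W ⟨G, hG⟩ = 0 := by
      refine Lp.ext ?_
      filter_upwards [ae_zero_of_orth ((Lp.memLp _).integrable one_le_two) h0,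
        Lp.coeFn_zero ℂ 2 ν] with t h1 h2
      rw [h2, h1]
    have hG0 : G = 0 := congrArg Subtype.val (W.injective (hz.trans W.map_zero.symm))
    refine hg.coeFn_toLp.symm.trans ?_
    rw [show hg.toLp = 0 from hG0]
    exact Lp.coeFn_zero ℂ 2 μ

end Vale.Agent.P130.Rank.Simple
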