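import Vale.Agent.P130.Rank.Simple.Model

/-!
The level functions of a rank-one model: norms, means and approximation by mean-zero functions
vanishing on the top level.
-/

open Real Finset MeasureTheory Filter
open scoped InnerProductSpace ComplexConjugate Topology
open Vale.Agent.P110.Exist (e dot)

noncomputable section

namespace Vale.Agent.P130.Rank.Simple

/-- A model of stage data. -/
structure Model (S : Stages) where
  μ : Measure ℝ
  T : ℝ ≃ᵐ ℝ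
  ψ : ∀ n, (Fin (S.h n) → ℂ) →ₗ[ℂ] Lp ℂ 2 μ
  prob : IsProbabilityMeasure μ
  atomless : NullSingletonClass μ
  mp : MeasurePreserving T μ μ
  norm : ∀ n Q, ‖ψ n Q‖ ^ 2 = ∑ a, ‖Q a‖ ^ 2
  mean : ∀ n, ∃ c : ℂ, c ≠ 0 ∧ ∀ Q, ∫ x, ψ n Q x ∂μ = c * ∑ a, Q a
  compat : ∀ n Q, ψ (n + 1) (S.lift n Q) = ψ n Q
  shiftEq : ∀ n (Q : Fin (S.h n) → ℂ), (∀ a : Fin (S.h n), (a : ℕ) + 1 = S.h n → Q a = 0) →
    (fun x => ψ n (shift Q) x) =ᵐ[μ] fun x => ψ n Q (T.symm x)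
  dense : ∀ g : Lp ℂ 2 μ, ∀ ε : ℝ, 0 < ε → ∃ n Q, ‖ψ n Q - g‖ < ε

attribute [instance] Model.prob

variable {S : Stages} (m : Model S)

include m in
theorem Model.lift_iso (n : ℕ) (P : Fin (S.h n) → ℂ) :
    ∑ p, ‖S.lift n P p‖ ^ 2 = ∑ a, ‖P a‖ ^ 2 := by
  rw [← m.norm, m.compat, m.norm]

/-- The constant function one. -/
def Model.one : Lp ℂ 2 m.μ := Lp.const 2 m.μ (1 : ℂ)

theorem Model.mean_eq (g : Lp ℂ 2 m.μ) : ⟪m.one, g⟫_ℂ = ∫ x, g x ∂m.μ := by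
  rw [MeasureTheory.L2.inner_def]
  refine integral_congr_ae ?_
  filter_upwards [AEEqFun.coeFn_const (α := ℝ) (μ := m.μ) (1 : ℂ)] with x hx
  change (m.one : ℝ → ℂ) x = _ at hx
  rw [hx]
  simp [RCLike.inner_apply]

theorem Model.norm_mean_le (g : Lp ℂ 2 m.μ) : ‖∫ x, g x ∂m.μ‖ ≤ ‖g‖ := by
  rw [← m.mean_eq]
  refine (norm_inner_le_norm _ _).trans ?_
  have h1 : ‖m.one‖ ≤ 1 := le_of_le_of_eq (Lp.norm_const_le ..) (by simp)
  simpa using mul_le_mul_of_nonneg_right h1 (norm_nonneg g)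

theorem Model.integral_sub' (f g : Lp ℂ 2 m.μ) :
    ∫ x, (f - g : Lp ℂ 2 m.μ) x ∂m.μ = ∫ x, f x ∂m.μ - ∫ x, g x ∂m.μ := by
  simp only [← m.mean_eq, inner_sub_right]

/-- The mean-zero functions. -/
abbrev Model.Mzero : Submodule ℂ (Lp ℂ 2 m.μ) := (innerSL ℂ m.one).ker

theorem Model.mem_Mzero {g : Lp ℂ 2 m.μ} : g ∈ m.Mzero ↔ ∫ x, g x ∂m.μ = 0 := by
  rw [LinearMap.mem_ker, ← m.mean_eq]; rfl

instance Model.completeMzero : CompleteSpace m.Mzero :=
  (innerSL ℂ m.one).isClosed_ker.completeSpace_coe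

/-- The total on levels. -/
def total (h : ℕ) : (Fin h → ℂ) →ₗ[ℂ] ℂ where
  toFun Q := ∑ a, Q a
  map_add' P Q := by simp [sum_add_distrib]
  map_smul' c Q := by simp [mul_sum]

theorem Model.psi_mem (n : ℕ) {Q : Fin (S.h n) → ℂ} (hQ : ∑ a, Q a = 0) : m.ψ n Q ∈ m.Mzero := by
  obtain ⟨c, _, hc⟩ := m.mean n
  rw [m.mem_Mzero, hc, hQ, mul_zero]

theorem Model.mean_lower : ∃ K : ℝ, 0 < K ∧ ∀ n (Q : Fin (S.h n) → ℂ),
    K * ‖∑ a, Q a‖ ≤ ‖∫ x, m.ψ n Q x ∂m.μ‖ * √(S.h n) := by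
  choose c hc0 hc using m.mean
  have hpos : ∀ n, (0 : ℝ) < S.h n := fun n => by
    exact_mod_cast (show 0 < S.h n by have := two_le_h S n; omega)
  have hrec : ∀ n, c n = c (n + 1) * (√(S.m n) : ℂ) := by
    intro n
    have h1 := hc n 1
    rw [← m.compat, hc, sum_lift, mul_left_comm, mul_comm] at h1
    refine mul_left_cancel₀ (show (∑ _a : Fin (S.h n), (1 : ℂ)) ≠ 0 by
      simp [(show S.h n ≠ 0 by have := two_le_h S n; omega)]) ?_
    simp only [Pi.one_apply] at h1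
    linear_combination -h1
  have hK : ∀ n, ‖c 0‖ ^ 2 * S.h 0 ≤ ‖c n‖ ^ 2 * S.h n := by
    intro n
    induction n with
    | zero => exact le_rfl
    | succ n ih =>
      refine ih.trans ?_
      rw [hrec n, norm_mul, Complex.norm_real, Real.norm_of_nonneg (Real.sqrt_nonneg _), mul_pow,
        Real.sq_sqrt (Nat.cast_nonneg _), mul_assoc]
      refine mul_le_mul_of_nonneg_left ?_ (sq_nonneg _)
      rw [S.h_succ]; push_cast
      have : (0 : ℝ) ≤ ∑ j ∈ range (S.m n), (S.s n j : ℝ) := sum_nonneg fun j _ => Nat.cast_nonneg _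
      linarith
  refine ⟨‖c 0‖ * √(S.h 0), mul_pos (norm_pos_iff.2 (hc0 0)) (Real.sqrt_pos.2 (hpos 0)),
    fun n Q => ?_⟩
  rw [hc, norm_mul, mul_right_comm ‖c n‖]
  refine mul_le_mul_of_nonneg_right ?_ (norm_nonneg _)
  refine (pow_le_pow_iff_left₀ (by positivity) (by positivity) two_ne_zero).1 ?_
  rw [mul_pow, mul_pow, Real.sq_sqrt (Nat.cast_nonneg _), Real.sq_sqrt (Nat.cast_nonneg _)]
  exact hK n

/-- The value on the top level. -/
def topVal (n : ℕ) (Q : Fin (S.h n) → ℂ) : ℂ :=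
  Q ⟨S.h n - 1, by have := two_le_h S n; omega⟩

theorem norm_topVal_lift (n : ℕ) (Q : Fin (S.h n) → ℂ) :
    ‖topVal (n + 1) (S.lift n Q)‖ ≤ ‖topVal n Q‖ / √2 := by
  have hh := two_le_h S n
  have hm := S.two_le_m n
  set p : Fin (S.h (n + 1)) := ⟨S.h (n + 1) - 1, by have := two_le_h S (n + 1); omega⟩
  set a0 : Fin (S.h n) := ⟨S.h n - 1, by omega⟩
  have key : ∀ j < S.m n, ∀ a : Fin (S.h n),
      S.off n j + (a : ℕ) = (p : ℕ) → j = S.m n - 1 ∧ a = a0 := by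
    intro j hj a he
    have h1 : ∑ i ∈ range j, S.s n i ≤ ∑ i ∈ range (S.m n), S.s n i :=
      sum_le_sum_of_subset (range_mono hj.le)
    have h2 : p = S.h (n + 1) - 1 := rfl
    simp only [Stages.off, S.h_succ, p] at he
    have h3 : j + 1 = S.m n := by
      by_contra hne
      have h5 : (j + 2) * S.h n ≤ S.m n * S.h n := Nat.mul_le_mul_right _ (by omega)
      rw [add_mul] at h5
      have := a.isLt
      omega
    refine ⟨by omega, Fin.ext ?_⟩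
    have h4 : j * S.h n + S.h n = S.m n * S.h n := by rw [← h3]; ring
    have := a.isLt
    show (a : ℕ) = S.h n - 1
    omega
  have hnum : ‖∑ j ∈ range (S.m n), ∑ a : Fin (S.h n),
      if S.off n j + (a : ℕ) = (p : ℕ) then Q a else 0‖ ≤ ‖topVal n Q‖ := by
    rw [Finset.sum_eq_single (S.m n - 1), Finset.sum_eq_single a0]
    · split <;> simp [topVal, a0]
    · intro a _ ha
      rw [if_neg fun he => ha (key _ (by omega) a he).2]
    · exact fun h => absurd (mem_univ _) h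
    · intro j hj hne
      exact Finset.sum_eq_zero fun a _ => if_neg fun he => hne (key j (mem_range.1 hj) a he).1
    · intro h; exact absurd (mem_range.2 (by omega)) h
  show ‖S.lift n Q p‖ ≤ _
  rw [Stages.lift, norm_div, Complex.norm_real, Real.norm_of_nonneg (Real.sqrt_nonneg _)]
  have h2 : √2 ≤ √(S.m n : ℝ) := Real.sqrt_le_sqrt (by exact_mod_cast hm)
  calc _ ≤ ‖topVal n Q‖ / √(S.m n : ℝ) := div_le_div_of_nonneg_right hnum (Real.sqrt_nonneg _)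
    _ ≤ ‖topVal n Q‖ / √2 := div_le_div_of_nonneg_left (norm_nonneg _) (by positivity) h2

theorem Model.exists_small_top (n : ℕ) (Q : Fin (S.h n) → ℂ) (hQ : ∑ a, Q a = 0) (k : ℕ) :
    ∃ P : Fin (S.h (n + k)) → ℂ, ∑ a, P a = 0 ∧ m.ψ (n + k) P = m.ψ n Q ∧
      ‖topVal (n + k) P‖ ≤ ‖topVal n Q‖ * (1 / √2) ^ k := by
  induction k with
  | zero => exact ⟨Q, hQ, rfl, by simp⟩
  | succ k ih =>
    obtain ⟨P, h1, h2, h3⟩ := ih
    refine ⟨S.lift (n + k) P, ?_, (m.compat _ P).trans h2, ?_⟩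
    · exact (sum_lift S _ P).trans (by rw [h1, zero_mul])
    · refine (norm_topVal_lift (n + k) P).trans ?_
      rw [pow_succ, div_eq_mul_one_div, ← mul_assoc]
      exact mul_le_mul_of_nonneg_right h3 (by positivity)

theorem Model.approx {x : Lp ℂ 2 m.μ} (hx : ∫ t, x t ∂m.μ = 0) {ε : ℝ} (hε : 0 < ε) :
    ∃ n, ∃ Q : Fin (S.h n) → ℂ, ∑ a, Q a = 0 ∧
      (∀ a : Fin (S.h n), (a : ℕ) + 1 = S.h n → Q a = 0) ∧ ‖m.ψ n Q - x‖ < ε := by
  obtain ⟨K, hK, hlow⟩ := m.mean_lower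
  obtain ⟨n, Q, hQ⟩ := m.dense x (min (ε / 4) (ε * K / 4)) (by positivity)
  have hQ1 : ‖m.ψ n Q - x‖ < ε / 4 := hQ.trans_le (min_le_left _ _)
  have hQ2 : ‖m.ψ n Q - x‖ < ε * K / 4 := hQ.trans_le (min_le_right _ _)
  have hh : (0 : ℝ) < S.h n := by exact_mod_cast (show 0 < S.h n by have := two_le_h S n; omega)
  have hmean : ‖∫ t, m.ψ n Q t ∂m.μ‖ ≤ ‖m.ψ n Q - x‖ := by
    refine le_of_eq_of_le ?_ (m.norm_mean_le _)
    rw [m.integral_sub', hx, sub_zero]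
  -- correct the mean
  set C : Fin (S.h n) → ℂ := fun _ => (∑ a, Q a) / (S.h n : ℂ)
  have hC : ‖m.ψ n C‖ ≤ ε / 4 := by
    have h1 : ‖m.ψ n C‖ * √(S.h n) = ‖∑ a, Q a‖ := by
      refine (pow_left_inj₀ (by positivity) (norm_nonneg _) two_ne_zero).1 ?_
      rw [mul_pow, m.norm, Real.sq_sqrt hh.le]
      simp only [C, norm_div, Complex.norm_natCast, sum_const, card_univ, Fintype.card_fin,
        nsmul_eq_mul]
      field_simp
    refine le_of_mul_le_mul_right ?_ (mul_pos hK (Real.sqrt_pos.2 hh))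
    calc ‖m.ψ n C‖ * (K * √(S.h n)) = K * ‖∑ a, Q a‖ := by rw [← h1]; ring
      _ ≤ ‖m.ψ n Q - x‖ * √(S.h n) :=
        (hlow n Q).trans (mul_le_mul_of_nonneg_right hmean (Real.sqrt_nonneg _))
      _ ≤ ε * K / 4 * √(S.h n) := mul_le_mul_of_nonneg_right hQ2.le (Real.sqrt_nonneg _)
      _ = ε / 4 * (K * √(S.h n)) := by ring
  have hR : ∑ a, (Q - C) a = 0 := by
    simp only [Pi.sub_apply, sum_sub_distrib, C, sum_const, card_univ, Fintype.card_fin,
      nsmul_eq_mul]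
    rw [mul_div_cancel₀ _ (by exact_mod_cast hh.ne'), sub_self]
  -- make the top small, then move it down
  have h2 : (1 : ℝ) / √2 < 1 := by
    rw [div_lt_one (by positivity), Real.lt_sqrt zero_le_one]; norm_num
  obtain ⟨k, hk⟩ := exists_pow_lt_of_lt_one
    (show (0 : ℝ) < ε / (4 * (‖topVal n (Q - C)‖ + 1)) by positivity) h2
  obtain ⟨N, P, hP1, hP2, hP3⟩ : ∃ N, ∃ P : Fin (S.h N) → ℂ, ∑ a, P a = 0 ∧
      m.ψ N P = m.ψ n (Q - C) ∧ ‖topVal N P‖ ≤ ‖topVal n (Q - C)‖ * (1 / √2) ^ k :=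
    ⟨n + k, m.exists_small_top n (Q - C) hR k⟩
  have hN := two_le_h S N
  set p1 : Fin (S.h N) := ⟨S.h N - 1, by omega⟩
  set p2 : Fin (S.h N) := ⟨S.h N - 2, by omega⟩
  set c := topVal N P
  have hp : p2 ≠ p1 := fun h => by have := congrArg Fin.val h; simp only [p1, p2] at this; omega
  set v : Fin (S.h N) → ℂ := Pi.single p2 c - Pi.single p1 c
  have hv : ‖m.ψ N v‖ ≤ 2 * ‖c‖ := by
    refine (pow_le_pow_iff_left₀ (norm_nonneg _) (by positivity) two_ne_zero).1 ?_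
    rw [m.norm, ← Finset.sum_subset (s₁ := {p2, p1}) (subset_univ _) (fun a _ ha => by
      simp only [mem_insert, mem_singleton, not_or] at ha
      simp [v, ha.1, ha.2]), sum_pair hp]
    simp [v, hp, hp.symm]
    nlinarith [sq_nonneg ‖c‖]
  refine ⟨N, P + v, ?_, fun a ha => ?_, ?_⟩
  · simp [v, sum_add_distrib, hP1]
  · obtain rfl : a = p1 := Fin.ext (show (a : ℕ) = S.h N - 1 by omega)
    simp only [Pi.add_apply, v, Pi.sub_apply, Pi.single_eq_same, Pi.single_eq_of_ne hp.symm,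
      zero_sub]
    show P p1 + -c = 0
    exact add_neg_cancel _
  · have hc : 2 * ‖c‖ < ε / 2 := by
      have h3 : (‖topVal n (Q - C)‖ + 1) * (1 / √2) ^ k < ε / 4 := by
        rw [lt_div_iff₀ (by positivity)] at hk; nlinarith
      have : 0 ≤ (1 / √2 : ℝ) ^ k := by positivity
      nlinarith
    rw [map_add, hP2, map_sub]
    calc ‖m.ψ n Q - m.ψ n C + m.ψ N v - x‖
        = ‖(m.ψ n Q - x) + (m.ψ N v - m.ψ n C)‖ := by congr 1; abel
      _ ≤ ‖m.ψ n Q - x‖ + (‖m.ψ N v‖ + ‖m.ψ n C‖) :=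
          (norm_add_le _ _).trans (by gcongr; exact norm_sub_le _ _)
      _ < ε := by linarith

end Vale.Agent.P130.Rank.Simple
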