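import Vale.Agent.P130.Rank.Simple.Sym

/-!
The spectral side: mean-zero level functions as functions on the unit interval.
-/

open Real Finset MeasureTheory Filter
open scoped InnerProductSpace ComplexConjugate Topology
open Vale.Agent.P110.Exist (e dot)

noncomputable section

namespace Vale.Agent.P130.Rank.Simple

open Vale.Agent.P110.Exist (norm_e e_add e_zero continuous_e)

theorem two_le_h (S : Stages) (n : ℕ) : 2 ≤ S.h n := by
  induction n with
  | zero => exact S.two_le_h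
  | succ n ih =>
    rw [S.h_succ]
    have h1 : 2 * 2 ≤ S.m n * S.h n := Nat.mul_le_mul (S.two_le_m n) ih
    omega

theorem pol_zero_arg (S : Stages) (n : ℕ) : S.pol n 0 = (√(S.m n) : ℂ) := by
  have h : (0 : ℝ) < √(S.m n) :=
    Real.sqrt_pos.2 (by have := S.two_le_m n; exact_mod_cast (show 0 < S.m n by omega))
  rw [Stages.pol]
  simp only [zero_mul, e_zero, sum_const, card_range, nsmul_eq_mul, mul_one]
  rw [div_eq_iff (by exact_mod_cast h.ne')]
  rw [← Complex.ofReal_mul, Real.mul_self_sqrt (Nat.cast_nonneg _)]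
  simp

theorem sum_lift (S : Stages) (n : ℕ) (Q : Fin (S.h n) → ℂ) :
    ∑ p, S.lift n Q p = (∑ a, Q a) * (√(S.m n) : ℂ) := by
  rw [← sym_zero_arg, sym_lift, sym_zero_arg, pol_zero_arg]

theorem continuous_pol (S : Stages) (n : ℕ) : Continuous (S.pol n) :=
  (continuous_finsetSum _ fun _ _ =>
    continuous_e.comp (continuous_id.mul continuous_const)).div_const _

theorem continuous_dens (S : Stages) (n k : ℕ) : Continuous (S.dens n k) :=
  ((continuous_const.sub continuous_e).norm.pow 2).mul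
    (continuous_finsetProd _ fun _ _ => ((continuous_pol S _).norm.pow 2))

theorem dens_nonneg (S : Stages) (n k : ℕ) (t : ℝ) : 0 ≤ S.dens n k t := by
  unfold Stages.dens; positivity

theorem norm_pol_le (S : Stages) (n : ℕ) (t : ℝ) : ‖S.pol n t‖ ≤ √(S.m n) := by
  rw [Stages.pol, norm_div, Complex.norm_real, Real.norm_eq_abs, abs_of_nonneg (Real.sqrt_nonneg _)]
  have h1 : ‖∑ j ∈ range (S.m n), e (t * (S.off n j : ℝ))‖ ≤ S.m n := by
    refine (norm_sum_le _ _).trans ?_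
    simp [norm_e]
  refine (div_le_div_of_nonneg_right h1 (Real.sqrt_nonneg _)).trans_eq ?_
  exact Real.div_sqrt

theorem dens_succ (S : Stages) (n k : ℕ) (t : ℝ) :
    S.dens n (k + 1) t = ‖S.pol n t‖ ^ 2 * S.dens (n + 1) k t := by
  rw [Stages.dens, Stages.dens, prod_range_succ', show n + 0 = n from rfl]
  rw [prod_congr rfl (g := fun i => ‖S.pol (n + 1 + i) t‖ ^ 2)
    (fun i _ => by rw [show n + (i + 1) = n + 1 + i by omega])]
  ring

theorem memLp_sqrt_dens (S : Stages) (n k : ℕ) : MemLp (fun t => √(S.dens n k t)) 2 ν := by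
  obtain ⟨C, hC⟩ := isCompact_Icc.exists_bound_of_continuousOn
    ((Real.continuous_sqrt.comp (continuous_dens S n k)).continuousOn (s := Set.Icc (0 : ℝ) 1))
  refine MemLp.of_bound (Real.continuous_sqrt.comp (continuous_dens S n k)).aestronglyMeasurable C ?_
  filter_upwards [ae_restrict_mem measurableSet_Ioc] with t ht
  exact hC t (Set.Ioc_subset_Icc_self ht)

/-- Limits of the densities of stage data. -/
structure Lim (S : Stages) where
  L : ℕ → ℝ → ℝ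
  meas : ∀ n, Measurable (L n)
  nonneg : ∀ n t, 0 ≤ L n t
  pos : ∀ n, ∀ᵐ t ∂ν, 0 < L n t
  memLp : ∀ n, MemLp (L n) 2 ν
  tends : ∀ n, Tendsto (fun k => ∫ t, (√(S.dens n k t) - L n t) ^ 2 ∂ν) atTop (𝓝 0)

theorem exists_lim {S : Stages}
    (h : ∀ n, ∃ L : ℝ → ℝ, Measurable L ∧ (∀ t, 0 ≤ L t) ∧
      (∀ᵐ t ∂(volume.restrict (Set.Ioc (0 : ℝ) 1)), 0 < L t) ∧
      IntegrableOn (fun t => L t ^ 2) (Set.Ioc 0 1) ∧
      Tendsto (fun k => ∫ t in (0 : ℝ)..1, (√(S.dens n k t) - L t) ^ 2) atTop (𝓝 0)) :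
    Nonempty (Lim S) := by
  choose L h1 h2 h3 h4 h5 using h
  refine ⟨⟨L, h1, h2, h3, fun n => ?_, fun n => ?_⟩⟩
  · exact (memLp_two_iff_integrable_sq (h1 n).aestronglyMeasurable).2 (h4 n)
  · simpa only [intervalIntegral.integral_of_le (zero_le_one (α := ℝ))] using h5 n

variable {S : Stages} (Λ : Lim S)

theorem Lim.rec_eq (n : ℕ) : ∀ᵐ t ∂ν, Λ.L n t = ‖S.pol n t‖ * Λ.L (n + 1) t := by
  set M : ℝ := √(S.m n)
  have hu : ∀ k, MemLp (fun t => √(S.dens (n + 1) k t) - Λ.L (n + 1) t) 2 ν := fun k =>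
    (memLp_sqrt_dens S (n + 1) k).sub (Λ.memLp (n + 1))
  have hv : MemLp (fun t => Λ.L n t - ‖S.pol n t‖ * Λ.L (n + 1) t) 2 ν := by
    refine (Λ.memLp n).sub (((Λ.memLp (n + 1)).const_mul M).of_le
      ((continuous_pol S n).norm.aestronglyMeasurable.mul (Λ.meas (n + 1)).aestronglyMeasurable)
      (Eventually.of_forall fun t => ?_))
    rw [norm_mul, norm_mul, norm_norm, Real.norm_of_nonneg (Real.sqrt_nonneg _)]
    exact mul_le_mul_of_nonneg_right (norm_pol_le S n t) (norm_nonneg _)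
  have hle : ∀ k, ∫ t, (Λ.L n t - ‖S.pol n t‖ * Λ.L (n + 1) t) ^ 2 ∂ν ≤
      2 * (∫ t, (√(S.dens n (k + 1) t) - Λ.L n t) ^ 2 ∂ν) +
        2 * M ^ 2 * ∫ t, (√(S.dens (n + 1) k t) - Λ.L (n + 1) t) ^ 2 ∂ν := fun k => by
    have h1 : Integrable (fun t => (√(S.dens n (k + 1) t) - Λ.L n t) ^ 2) ν :=
      ((memLp_sqrt_dens S n (k + 1)).sub (Λ.memLp n)).integrable_sq
    have h2 : Integrable (fun t => (√(S.dens (n + 1) k t) - Λ.L (n + 1) t) ^ 2) ν :=
      (hu k).integrable_sq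
    rw [← integral_const_mul, ← integral_const_mul,
      ← integral_add (h1.const_mul _) (h2.const_mul _)]
    refine integral_mono hv.integrable_sq ((h1.const_mul _).add (h2.const_mul _)) fun t => ?_
    have e1 : √(S.dens n (k + 1) t) = ‖S.pol n t‖ * √(S.dens (n + 1) k t) := by
      rw [dens_succ, Real.sqrt_mul (sq_nonneg _), Real.sqrt_sq (norm_nonneg _)]
    set D := √(S.dens (n + 1) k t)
    set P := ‖S.pol n t‖
    rw [e1]
    have hP : P ^ 2 ≤ M ^ 2 := pow_le_pow_left₀ (norm_nonneg _) (norm_pol_le S n t) 2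
    nlinarith [sq_nonneg (P * D - Λ.L n t + (P * D - P * Λ.L (n + 1) t)),
      mul_le_mul_of_nonneg_right hP (sq_nonneg (D - Λ.L (n + 1) t))]
  have h0 : ∫ t, (Λ.L n t - ‖S.pol n t‖ * Λ.L (n + 1) t) ^ 2 ∂ν = 0 := by
    refine le_antisymm (ge_of_tendsto' (x := atTop) ?_ hle) (integral_nonneg fun t => sq_nonneg _)
    simpa using (((tendsto_add_atTop_iff_nat 1).2 (Λ.tends n)).const_mul 2).add
      ((Λ.tends (n + 1)).const_mul (2 * M ^ 2))
  filter_upwards [(integral_eq_zero_iff_of_nonneg (fun t => sq_nonneg _) hv.integrable_sq).1 h0]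
    with t ht
  exact sub_eq_zero.1 (sq_eq_zero_iff.1 ht)

/-- The multipliers `Z n`, with `|Z n| |1 - e| = L n` and `Z (n + 1) = Z n / pol n`. -/
def Lim.Z : ℕ → ℝ → ℂ
  | 0 => fun t => (Λ.L 0 t : ℂ) / (1 - e t)
  | n + 1 => fun t => Lim.Z n t / S.pol n t

theorem Lim.measurable_Z (n : ℕ) : Measurable (Λ.Z n) := by
  induction n with
  | zero =>
    exact (Complex.measurable_ofReal.comp (Λ.meas 0)).div
      (continuous_const.sub continuous_e).measurable
  | succ n ih => exact ih.div (continuous_pol S n).measurable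

theorem Lim.Z_spec (n : ℕ) : ∀ᵐ t ∂ν, ‖Λ.Z n t‖ * ‖1 - e t‖ = Λ.L n t ∧ S.pol n t ≠ 0 := by
  have hne : ∀ m, ∀ᵐ t ∂ν, S.pol m t ≠ 0 := fun m => by
    filter_upwards [Λ.rec_eq m, Λ.pos m] with t h1 h2 h3
    simp [h1, h3] at h2
  induction n with
  | zero =>
    filter_upwards [ae_one_sub_e_ne, hne 0] with t h1 h2
    refine ⟨?_, h2⟩
    rw [Lim.Z, norm_div, div_mul_cancel₀ _ (norm_ne_zero_iff.2 h1), Complex.norm_real,
      Real.norm_of_nonneg (Λ.nonneg 0 t)]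
  | succ n ih =>
    filter_upwards [ih, Λ.rec_eq n, hne (n + 1)] with t h1 h2 h3
    refine ⟨?_, h3⟩
    rw [Lim.Z, norm_div, div_mul_eq_mul_div, h1.1, h2, mul_div_cancel_left₀]
    exact norm_ne_zero_iff.2 h1.2

/-- The spectral image of a level function. -/
def Lim.F (n : ℕ) (Q : Fin (S.h n) → ℂ) (t : ℝ) : ℂ := sym Q t * Λ.Z n t

theorem Lim.F_lift (n : ℕ) (Q : Fin (S.h n) → ℂ) :
    Λ.F (n + 1) (S.lift n Q) =ᵐ[ν] Λ.F n Q := by
  filter_upwards [Λ.Z_spec n] with t h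
  rw [Lim.F, Lim.F, sym_lift, Lim.Z, mul_assoc, mul_div_cancel₀ _ h.2]

theorem Lim.memLp_F (n : ℕ) {Q : Fin (S.h n) → ℂ} (hQ : ∑ a, Q a = 0) :
    MemLp (Λ.F n Q) 2 ν := by
  refine ((Λ.memLp n).const_mul (bd Q)).of_le
    ((continuous_sym Q).aestronglyMeasurable.mul (Λ.measurable_Z n).aestronglyMeasurable) ?_
  filter_upwards [Λ.Z_spec n] with t h
  rw [Lim.F, norm_mul, norm_mul, Real.norm_of_nonneg (bd_nonneg Q),
    Real.norm_of_nonneg (Λ.nonneg n t), ← h.1]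
  calc ‖sym Q t‖ * ‖Λ.Z n t‖ ≤ bd Q * ‖1 - e t‖ * ‖Λ.Z n t‖ :=
        mul_le_mul_of_nonneg_right (norm_sym_le hQ t) (norm_nonneg _)
    _ = bd Q * (‖Λ.Z n t‖ * ‖1 - e t‖) := by ring

theorem exists_liftIter (N : ℕ) (Q : Fin (S.h N) → ℂ)
    (hiso : ∀ n (P : Fin (S.h n) → ℂ), ∑ p, ‖S.lift n P p‖ ^ 2 = ∑ a, ‖P a‖ ^ 2) (k : ℕ) :
    ∃ P : Fin (S.h (N + k)) → ℂ, ∑ a, ‖P a‖ ^ 2 = ∑ a, ‖Q a‖ ^ 2 ∧
      ∀ t, sym P t = sym Q t * ∏ i ∈ range k, S.pol (N + i) t := by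
  induction k with
  | zero => exact ⟨Q, rfl, fun t => by simp⟩
  | succ k ih =>
    obtain ⟨P, h1, h2⟩ := ih
    exact ⟨S.lift (N + k) P, (hiso _ _).trans h1, fun t => by
      rw [sym_lift, h2, prod_range_succ, mul_assoc]⟩

theorem Lim.norm_F (hiso : ∀ n (P : Fin (S.h n) → ℂ), ∑ p, ‖S.lift n P p‖ ^ 2 = ∑ a, ‖P a‖ ^ 2)
    (n : ℕ) {Q : Fin (S.h n) → ℂ} (hQ : ∑ a, Q a = 0) :
    ∫ t, ‖Λ.F n Q t‖ ^ 2 ∂ν = ∑ a, ‖Q a‖ ^ 2 := by
  set g : ℝ → ℝ := fun t => ‖sym Q t‖ / ‖1 - e t‖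
  have hgm : Measurable g :=
    (continuous_sym Q).norm.measurable.div (continuous_const.sub continuous_e).norm.measurable
  have hg : ∀ t, ‖g t‖ ≤ bd Q := fun t => by
    rw [Real.norm_of_nonneg (by positivity)]
    rcases eq_or_ne ‖1 - e t‖ 0 with h | h
    · simp [g, h, bd_nonneg]
    · rw [div_le_iff₀ (lt_of_le_of_ne (norm_nonneg _) (Ne.symm h))]
      exact norm_sym_le hQ t
  have hmem : ∀ v : ℝ → ℝ, MemLp v 2 ν → MemLp (fun t => g t * v t) 2 ν := fun v hv =>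
    (hv.const_mul (bd Q)).of_le (hgm.aestronglyMeasurable.mul hv.1) (Eventually.of_forall fun t => by
      rw [norm_mul, norm_mul, Real.norm_of_nonneg (bd_nonneg Q)]
      exact mul_le_mul_of_nonneg_right (hg t) (norm_nonneg _))
  have hk : ∀ k, ∫ t, (g t * √(S.dens n k t)) ^ 2 ∂ν = ∑ a, ‖Q a‖ ^ 2 := fun k => by
    obtain ⟨P, h1, h2⟩ := exists_liftIter n Q hiso k
    rw [← h1, ← sum_norm_sq_eq P]
    refine integral_congr_ae ?_
    filter_upwards [ae_one_sub_e_ne] with t ht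
    rw [mul_pow, Real.sq_sqrt (dens_nonneg S n k t), h2, norm_mul, mul_pow, norm_prod,
      ← prod_pow, Stages.dens]
    have := norm_ne_zero_iff.2 ht
    simp only [g]
    field_simp
  have hd : Tendsto (fun k => ∫ t, (g t * √(S.dens n k t) - g t * Λ.L n t) ^ 2 ∂ν) atTop (𝓝 0) := by
    refine squeeze_zero (fun k => integral_nonneg fun t => sq_nonneg _) (fun k => ?_)
      (by simpa using (Λ.tends n).const_mul (bd Q ^ 2))
    have h1 : Integrable (fun t => (√(S.dens n k t) - Λ.L n t) ^ 2) ν :=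
      ((memLp_sqrt_dens S n k).sub (Λ.memLp n)).integrable_sq
    rw [← integral_const_mul]
    refine integral_mono
      ((hmem _ (memLp_sqrt_dens S n k)).sub (hmem _ (Λ.memLp n))).integrable_sq
      (h1.const_mul _) fun t => ?_
    show (g t * √(S.dens n k t) - g t * Λ.L n t) ^ 2 ≤ _
    rw [← mul_sub, mul_pow]
    refine mul_le_mul_of_nonneg_right ?_ (sq_nonneg _)
    calc g t ^ 2 = ‖g t‖ ^ 2 := by rw [Real.norm_eq_abs, sq_abs]
      _ ≤ bd Q ^ 2 := pow_le_pow_left₀ (norm_nonneg _) (hg t) 2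
  rw [← sq_limit (fun k => hmem _ (memLp_sqrt_dens S n k)) (hmem _ (Λ.memLp n)) hk hd]
  refine integral_congr_ae ?_
  filter_upwards [Λ.Z_spec n, ae_one_sub_e_ne] with t h ht
  have := norm_ne_zero_iff.2 ht
  rw [Lim.F, norm_mul, ← h.1]
  simp only [g]
  field_simp

end Vale.Agent.P130.Rank.Simple
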