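import Vale.Agent.P130.Rank.Spec
import Vale.Agent.P130.Circle

/-!
Trigonometric polynomials of level functions, and generic facts on `L²` of the unit interval.
-/

open Real Finset MeasureTheory Filter
open scoped InnerProductSpace ComplexConjugate Topology
open Vale.Agent.P110.Exist (e dot)

noncomputable section

namespace Vale.Agent.P130.Rank.Simple

open Vale.Agent.P110.Exist (norm_e e_add e_zero e_neg continuous_e e_int)

/-- Lebesgue measure on the unit interval. -/
abbrev ν : Measure ℝ := volume.restrict (Set.Ioc (0 : ℝ) 1)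

instance : IsProbabilityMeasure ν := ⟨by simp [ν, Real.volume_Ioc]⟩

/-- The trigonometric polynomial of a function on levels. -/
def sym {h : ℕ} (Q : Fin h → ℂ) (t : ℝ) : ℂ := ∑ a : Fin h, Q a * e (t * ((a : ℕ) : ℝ))

theorem continuous_sym {h : ℕ} (Q : Fin h → ℂ) : Continuous (sym Q) :=
  continuous_finsetSum _ fun _ _ =>
    continuous_const.mul (continuous_e.comp (continuous_id.mul continuous_const))

theorem sym_zero_arg {h : ℕ} (Q : Fin h → ℂ) : sym Q 0 = ∑ a, Q a := by simp [sym]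

theorem sym_add {h : ℕ} (P Q : Fin h → ℂ) (t : ℝ) : sym (P + Q) t = sym P t + sym Q t := by
  simp [sym, add_mul, sum_add_distrib]

theorem sym_smul {h : ℕ} (c : ℂ) (Q : Fin h → ℂ) (t : ℝ) : sym (c • Q) t = c * sym Q t := by
  simp [sym, mul_sum, mul_assoc]

theorem off_add_lt (S : Stages) (n j : ℕ) (hj : j < S.m n) (a : Fin (S.h n)) :
    S.off n j + (a : ℕ) < S.h (n + 1) := by
  rw [Stages.off, S.h_succ]
  have h1 : ∑ i ∈ range j, S.s n i ≤ ∑ i ∈ range (S.m n), S.s n i :=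
    sum_le_sum_of_subset (range_mono hj.le)
  have h2 : j * S.h n + S.h n ≤ S.m n * S.h n := by
    rw [← Nat.succ_mul]; exact Nat.mul_le_mul_right _ hj
  have := a.isLt
  omega

theorem sym_lift (S : Stages) (n : ℕ) (Q : Fin (S.h n) → ℂ) (t : ℝ) :
    sym (S.lift n Q) t = sym Q t * S.pol n t := by
  simp only [sym, Stages.lift, Stages.pol, mul_div_assoc', div_mul_eq_mul_div, ← sum_div]
  congr 1
  simp only [sum_mul, mul_sum]
  rw [sum_comm]
  refine sum_congr rfl fun j hj => ?_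
  rw [sum_comm]
  refine sum_congr rfl fun a _ => ?_
  rw [Finset.sum_eq_single ⟨_, off_add_lt S n j (mem_range.1 hj) a⟩]
  · rw [if_pos rfl, Nat.cast_add, mul_add, e_add]; ring
  · intro p _ hp
    rw [if_neg (fun hh => hp (Fin.ext hh.symm)), zero_mul]
  · exact fun h => absurd (mem_univ _) h

theorem sym_shift {h : ℕ} (Q : Fin h → ℂ) (hQ : ∀ a : Fin h, (a : ℕ) + 1 = h → Q a = 0) (t : ℝ) :
    sym (shift Q) t = e t * sym Q t := by
  cases h with
  | zero => simp [sym]
  | succ k =>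
    rw [sym, sym, Fin.sum_univ_succ, Fin.sum_univ_castSucc (f := fun a : Fin (k + 1) =>
      Q a * e (t * ((a : ℕ) : ℝ)))]
    have hlast : Q (Fin.last k) = 0 := hQ _ (by simp)
    have h0 : shift Q 0 = 0 := by simp [shift]
    rw [h0, hlast, zero_mul, zero_mul, add_zero, zero_add, mul_sum]
    refine sum_congr rfl fun i _ => ?_
    have h1 : shift Q i.succ = Q i.castSucc := by
      rw [shift, dif_neg (by simp)]
      congr 1
    rw [h1, Fin.val_succ, Fin.val_castSucc, Nat.cast_add_one, mul_add, mul_one, e_add]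
    ring

theorem norm_e_nat_sub_one (a : ℕ) (t : ℝ) : ‖e (t * (a : ℝ)) - 1‖ ≤ a * ‖1 - e t‖ := by
  induction a with
  | zero => simp
  | succ a ih =>
    rw [Nat.cast_add_one, mul_add, mul_one, e_add,
      show e (t * (a : ℝ)) * e t - 1 = e (t * (a : ℝ)) * (e t - 1) + (e (t * (a : ℝ)) - 1) by ring]
    refine (norm_add_le _ _).trans ?_
    rw [norm_mul, norm_e, one_mul, norm_sub_rev (e t) 1]
    linarith

/-- A bound for the polynomial of a mean-zero level function divided by `|1 - e t|`. -/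
def bd {h : ℕ} (Q : Fin h → ℂ) : ℝ := ∑ a : Fin h, ‖Q a‖ * ((a : ℕ) : ℝ)

theorem bd_nonneg {h : ℕ} (Q : Fin h → ℂ) : 0 ≤ bd Q := sum_nonneg fun a _ => by positivity

theorem norm_sym_le {h : ℕ} {Q : Fin h → ℂ} (hQ : ∑ a, Q a = 0) (t : ℝ) :
    ‖sym Q t‖ ≤ bd Q * ‖1 - e t‖ := by
  have h1 : sym Q t = ∑ a : Fin h, Q a * (e (t * ((a : ℕ) : ℝ)) - 1) := by
    simp only [mul_sub, sum_sub_distrib, mul_one, hQ, sub_zero, sym]
  rw [h1, bd, sum_mul]
  refine (norm_sum_le _ _).trans (sum_le_sum fun a _ => ?_)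
  rw [norm_mul, mul_assoc]
  exact mul_le_mul_of_nonneg_left (norm_e_nat_sub_one _ _) (norm_nonneg _)

theorem e_eq_fourier (k : ℤ) (t : ℝ) : e (t * (k : ℝ)) = fourier k (t : Circ) := by
  rw [fourier_coe_apply, e]
  congr 1
  push_cast
  ring

theorem integral_bridge {E : Type*} [NormedAddCommGroup E] [NormedSpace ℝ E] (F : Circ → E) :
    ∫ t : ℝ, F (t : Circ) ∂ν = ∫ x, F x ∂haar := by
  have hv : (volume : Measure Circ) = haar := by
    rw [AddCircle.volume_eq_smul_haarAddCircle]; simp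
  rw [← hv, ← AddCircle.integral_preimage (1 : ℝ) 0 F, zero_add]

theorem integral_e (k : ℤ) : ∫ t, e (t * (k : ℝ)) ∂ν = if k = 0 then 1 else 0 := by
  simp only [e_eq_fourier]
  rw [integral_bridge (fun x => fourier k x)]
  have h := congrFun (fourierCoeff_fourier (T := (1 : ℝ)) k) 0
  simpa [fourierCoeff, Pi.single_apply, eq_comm] using h

theorem ae_one_sub_e_ne : ∀ᵐ t ∂ν, 1 - e t ≠ 0 := by
  have h1 : ∀ᵐ t ∂ν, t ∈ Set.Ioc (0 : ℝ) 1 := ae_restrict_mem measurableSet_Ioc
  have h2 : ∀ᵐ t ∂ν, t ≠ (1 : ℝ) := by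
    refine ae_iff.2 ?_
    simp only [ne_eq, not_not, Set.ofPred_eq_eq_singleton]
    exact measure_singleton 1
  filter_upwards [h1, h2] with t ht ht1
  rw [sub_ne_zero, ne_comm, e, Ne, Complex.exp_eq_one_iff]
  rintro ⟨z, hz⟩
  have hc : ((2 * π * t : ℝ) : ℂ) * Complex.I = ((2 * π * (z : ℝ) : ℝ) : ℂ) * Complex.I := by
    rw [hz]; push_cast; ring
  have h3 : 2 * π * t = 2 * π * (z : ℝ) :=
    Complex.ofReal_injective (mul_right_cancel₀ Complex.I_ne_zero hc)
  have h4 : t = z := mul_left_cancel₀ (by positivity) h3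
  subst h4
  have h5 : (0 : ℤ) < z := by exact_mod_cast ht.1
  have h6 : z ≤ 1 := by exact_mod_cast ht.2
  exact ht1 (by exact_mod_cast (show z = 1 by omega))

theorem sum_norm_sq_eq {h : ℕ} (Q : Fin h → ℂ) : ∫ t, ‖sym Q t‖ ^ 2 ∂ν = ∑ a, ‖Q a‖ ^ 2 := by
  have key : ∀ t, ((‖sym Q t‖ ^ 2 : ℝ) : ℂ) =
      ∑ a : Fin h, ∑ b : Fin h, conj (Q a) * Q b *
        e (t * (((((b : ℕ) : ℤ) - ((a : ℕ) : ℤ)) : ℤ) : ℝ)) := by
    intro t
    rw [← Complex.normSq_eq_norm_sq, ← Complex.mul_conj, mul_comm, sym, map_sum, sum_mul]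
    refine sum_congr rfl fun a _ => ?_
    rw [mul_sum]
    refine sum_congr rfl fun b _ => ?_
    rw [map_mul, ← e_neg]
    push_cast
    rw [show t * (((b : ℕ) : ℝ) - ((a : ℕ) : ℝ)) = -(t * ((a : ℕ) : ℝ)) + t * ((b : ℕ) : ℝ) by ring,
      e_add]
    ring
  have hi : ∀ a b : Fin h, Integrable (fun t : ℝ => conj (Q a) * Q b *
      e (t * (((((b : ℕ) : ℤ) - ((a : ℕ) : ℤ)) : ℤ) : ℝ))) ν := fun a b =>
    Integrable.of_bound (continuous_const.mul
      (continuous_e.comp (continuous_id.mul continuous_const))).aestronglyMeasurable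
      (‖conj (Q a) * Q b‖) (Eventually.of_forall fun t => by
        rw [norm_mul _ (e _), norm_e, mul_one])
  have h2 : ((∫ t, ‖sym Q t‖ ^ 2 ∂ν : ℝ) : ℂ) = ((∑ a, ‖Q a‖ ^ 2 : ℝ) : ℂ) := by
    rw [← integral_complex_ofReal]
    simp only [key]
    rw [integral_finsetSum _ fun a _ => integrable_finsetSum _ fun b _ => hi a b, Complex.ofReal_sum]
    refine sum_congr rfl fun a _ => ?_
    rw [integral_finsetSum _ fun b _ => hi a b]
    simp only [integral_const_mul, integral_e]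
    rw [Finset.sum_eq_single a]
    · simp [Complex.conj_mul']
    · intro b _ hb
      rw [if_neg, mul_zero]
      rw [sub_eq_zero]
      exact fun hh => hb (Fin.ext (by exact_mod_cast hh))
    · exact fun hh => absurd (mem_univ _) hh
  exact_mod_cast h2

/-- An integrable function on the interval orthogonal to all exponentials vanishes. -/
theorem ae_zero_of_orth {G : ℝ → ℂ} (hG : Integrable G ν)
    (h : ∀ k : ℤ, ∫ t, e (t * (k : ℝ)) * G t ∂ν = 0) : G =ᵐ[ν] 0 := by
  have hv : (volume : Measure Circ) = haar := by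
    rw [AddCircle.volume_eq_smul_haarAddCircle]; simp
  set F : Circ → ℂ := AddCircle.liftIoc (1 : ℝ) 0 G
  have hFG : ∀ᵐ t : ℝ ∂ν, F (t : Circ) = G t := by
    filter_upwards [ae_restrict_mem measurableSet_Ioc] with t ht
    exact AddCircle.liftIoc_zero_coe_apply ht
  have hF : Integrable F haar := by
    rw [← hv, ← memLp_one_iff_integrable]
    exact MemLp.memLp_liftIoc (by rw [zero_add]; exact memLp_one_iff_integrable.2 hG)
  have hF0 : F =ᵐ[haar] 0 := ae_eq_zero_of_fourier hF fun k => by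
    rw [← integral_bridge (fun x => fourier k x * F x), ← h k]
    refine integral_congr_ae ?_
    filter_upwards [hFG] with t ht
    rw [ht, e_eq_fourier]
  rw [← hv] at hF0
  have hmp := (AddCircle.measurePreserving_mk (1 : ℝ) 0).quasiMeasurePreserving.ae_eq_comp hF0
  rw [zero_add] at hmp
  filter_upwards [hFG, hmp] with t ht ht'
  rw [← ht]
  exact ht'

theorem norm_sq_lp {α : Type*} [MeasurableSpace α] {μ : Measure α} (x : Lp ℂ 2 μ) :
    ‖x‖ ^ 2 = ∫ t, ‖x t‖ ^ 2 ∂μ := by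
  rw [← inner_self_eq_norm_sq (𝕜 := ℂ), MeasureTheory.L2.inner_def,
    ← integral_re (MeasureTheory.L2.integrable_inner x x)]
  simp only [inner_self_eq_norm_sq]

theorem inner_eq_of_norm_eq {V E F : Type*} [AddCommGroup V] [Module ℂ V] [NormedAddCommGroup E]
    [InnerProductSpace ℂ E] [NormedAddCommGroup F] [InnerProductSpace ℂ F] (A : V →ₗ[ℂ] E)
    (B : V →ₗ[ℂ] F) (h : ∀ x, ‖A x‖ = ‖B x‖) (x y : V) : ⟪A x, A y⟫_ℂ = ⟪B x, B y⟫_ℂ := by
  rw [inner_eq_sum_norm_sq_div_four (A x), inner_eq_sum_norm_sq_div_four (B x)]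
  simp only [← map_add, ← map_sub, ← map_smul, h]

/-- Squares of functions close in mean square have close integrals. -/
theorem sq_le_sq {α : Type*} [MeasurableSpace α] {μ : Measure α} {u v : α → ℝ} (hu : MemLp u 2 μ)
    (hv : MemLp v 2 μ) {s : ℝ} (hs : 0 < s) :
    ∫ t, u t ^ 2 ∂μ ≤ (1 + s) * ∫ t, v t ^ 2 ∂μ + (1 + 1 / s) * ∫ t, (u t - v t) ^ 2 ∂μ := by
  have hd : Integrable (fun t => (u t - v t) ^ 2) μ := (hu.sub hv).integrable_sq
  rw [← integral_const_mul, ← integral_const_mul,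
    ← integral_add (hv.integrable_sq.const_mul _) (hd.const_mul _)]
  refine integral_mono hu.integrable_sq ((hv.integrable_sq.const_mul _).add (hd.const_mul _))
    fun t => ?_
  have h1 : 0 ≤ (s * v t - (u t - v t)) ^ 2 / s := by positivity
  have h2 : (s * v t - (u t - v t)) ^ 2 / s
      = s * v t ^ 2 - 2 * v t * (u t - v t) + 1 / s * (u t - v t) ^ 2 := by field_simp; ring
  nlinarith

theorem sq_limit {α : Type*} [MeasurableSpace α] {μ : Measure α} {u : ℕ → α → ℝ} {v : α → ℝ}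
    (hu : ∀ k, MemLp (u k) 2 μ) (hv : MemLp v 2 μ) {c : ℝ} (hc : ∀ k, ∫ t, u k t ^ 2 ∂μ = c)
    (h : Tendsto (fun k => ∫ t, (u k t - v t) ^ 2 ∂μ) atTop (𝓝 0)) : ∫ t, v t ^ 2 ∂μ = c := by
  have h0 : 0 ≤ c := hc 0 ▸ integral_nonneg fun t => sq_nonneg _
  have h1 : 0 ≤ ∫ t, v t ^ 2 ∂μ := integral_nonneg fun t => sq_nonneg _
  have key : ∀ (A B : ℝ), 0 ≤ B → (∀ s > 0, A ≤ (1 + s) * B) → A ≤ B := fun A B hB hAB =>
    le_of_forall_pos_le_add fun ε hε => by
      have h2 := hAB (ε / (B + 1)) (by positivity)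
      have h3 : ε / (B + 1) * B ≤ ε := by
        rw [div_mul_eq_mul_div, div_le_iff₀ (by positivity)]; nlinarith
      nlinarith
  refine le_antisymm (key _ _ h0 fun s hs => ?_) (key _ _ h1 fun s hs => ?_)
  · refine ge_of_tendsto' (by simpa using ((h.const_mul (1 + 1 / s)).const_add ((1 + s) * c)))
      fun k => ?_
    have h2 := sq_le_sq hv (hu k) hs
    rw [hc k] at h2
    simpa [sub_sq_comm] using h2
  · refine ge_of_tendsto' (by simpa using
      ((h.const_mul (1 + 1 / s)).const_add ((1 + s) * ∫ t, v t ^ 2 ∂μ))) fun k => ?_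
    have h2 := sq_le_sq (hu k) hv hs
    rw [hc k] at h2
    simpa using h2

theorem memLp_expMul (k : ℤ) (y : Lp ℂ 2 ν) : MemLp (fun t => e (t * (k : ℝ)) * y t) 2 ν :=
  (Lp.memLp y).of_le
    ((continuous_e.comp (continuous_id.mul continuous_const)).aestronglyMeasurable.mul
      (Lp.aestronglyMeasurable y))
    (Eventually.of_forall fun t => by rw [norm_mul, norm_e, one_mul])

/-- Multiplication by `e (k t)`. -/
def mulE (k : ℤ) : Lp ℂ 2 ν →L[ℂ] Lp ℂ 2 ν :=
  LinearMap.mkContinuous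
    { toFun := fun y => (memLp_expMul k y).toLp
      map_add' := fun x y => by
        rw [← MemLp.toLp_add, MemLp.toLp_eq_toLp_iff]
        filter_upwards [Lp.coeFn_add x y] with t ht
        simp only [ht, Pi.add_apply, mul_add]
      map_smul' := fun a x => by
        rw [RingHom.id_apply, ← MemLp.toLp_const_smul, MemLp.toLp_eq_toLp_iff]
        filter_upwards [Lp.coeFn_smul a x] with t ht
        simp [ht, mul_left_comm] }
    1 fun y => by
      refine le_of_eq ?_
      rw [one_mul, Lp.norm_def, Lp.norm_def]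
      congr 1
      refine eLpNorm_congr_norm_ae ?_
      filter_upwards [(memLp_expMul k y).coeFn_toLp] with t ht
      show ‖((memLp_expMul k y).toLp : ℝ → ℂ) t‖ = _
      rw [ht, norm_mul, norm_e, one_mul]

theorem coeFn_mulE (k : ℤ) (y : Lp ℂ 2 ν) :
    (mulE k y : ℝ → ℂ) =ᵐ[ν] fun t => e (t * (k : ℝ)) * y t :=
  (memLp_expMul k y).coeFn_toLp

theorem mulE_mulE (a b : ℤ) (y : Lp ℂ 2 ν) : mulE a (mulE b y) = mulE (a + b) y := by
  refine Lp.ext ?_
  filter_upwards [coeFn_mulE a (mulE b y), coeFn_mulE b y, coeFn_mulE (a + b) y] with t h1 h2 h3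
  rw [h1, h2, h3, Int.cast_add, mul_add, e_add, mul_assoc]

theorem mulE_zero (y : Lp ℂ 2 ν) : mulE 0 y = y := by
  refine Lp.ext ?_
  filter_upwards [coeFn_mulE 0 y] with t h1
  rw [h1]; simp

end Vale.Agent.P130.Rank.Simple
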